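import Vale.Agent.P084.Full.PlaneFinal

/-!
Tingley's problem: every real Banach space has the Mazur-Ulam property.
-/

namespace Vale.Agent.Results.P084.MazurUlamProperty

universe u v

/-- Every surjective isometry between the unit spheres of two real Banach spaces is the restriction
of a linear isometry of the spaces. -/
theorem result {X : Type u} {Y : Type v} [NormedAddCommGroup X] [NormedSpace ℝ X] [CompleteSpace X]
    [NormedAddCommGroup Y] [NormedSpace ℝ Y] [CompleteSpace Y]
    (f : Metric.sphere (0 : X) 1 → Metric.sphere (0 : Y) 1) (hf : Isometry f)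
    (hs : Function.Surjective f) :
    ∃ T : X ≃ₗᵢ[ℝ] Y, ∀ x : Metric.sphere (0 : X) 1, T (x : X) = (f x : Y) :=
  Vale.Agent.P084.Full.mazurUlam_all f hf hs

end Vale.Agent.Results.P084.MazurUlamProperty
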